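import Vale.Agent.P038.MathlibUsed

/-!
# P038 (H623): egalitarian allocations

Agents `a` with weights `w a > 0`, objects `z` with sizes `w z`, `K a z` : agent `a` claims `z`.
`Alloc w K p` : `p a z` is the part of `z` given to `a`; every claimed object is given completely to
claimants, and only to claimants with the smallest ratio (received amount)/(weight).
-/

namespace Vale.Agent.P038.H623

open Finset

variable {V : Type*} [Fintype V]

/-- received amount -/
noncomputable def rcv (p : V → V → ℝ) (a : V) : ℝ := ∑ z, p a z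

/-- An egalitarian allocation. -/
structure Alloc (w : V → ℝ) (K : V → V → Prop) (p : V → V → ℝ) : Prop where
  nonneg : ∀ a z, 0 ≤ p a z
  supp : ∀ a z, ¬ K a z → p a z = 0
  full : ∀ z, (∃ a, K a z) → ∑ a, p a z = w z
  kkt : ∀ a a' z, 0 < p a z → K a' z → rcv p a / w a ≤ rcv p a' / w a'

theorem Alloc.claim {w : V → ℝ} {K : V → V → Prop} {p : V → V → ℝ} (h : Alloc w K p) {a z : V}
    (hp : 0 < p a z) : K a z := by
  by_contra hn
  rw [h.supp a z hn] at hp
  exact lt_irrefl _ hp

theorem Alloc.le_full {w : V → ℝ} {K : V → V → Prop} {p : V → V → ℝ} (h : Alloc w K p) {a z : V}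
    (hK : K a z) (s : Finset V) : ∑ b ∈ s, p b z ≤ w z := by
  rw [← h.full z ⟨a, hK⟩]
  exact Finset.sum_le_sum_of_subset_of_nonneg (Finset.subset_univ _) fun b _ _ => h.nonneg b z

/-- **Existence** of an egalitarian allocation (minimise `∑ r²/w`). -/
theorem exists_alloc (w : V → ℝ) (hw : ∀ v, 0 < w v) (K : V → V → Prop) :
    ∃ p, Alloc w K p := by
  classical
  let P : Set (V → V → ℝ) := {p | (∀ a z, 0 ≤ p a z) ∧ (∀ a z, ¬ K a z → p a z = 0) ∧
    ∀ z, (∃ a, K a z) → ∑ a, p a z = w z}
  have hle : ∀ p ∈ P, ∀ a z, p a z ≤ w z := by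
    rintro p ⟨h1, h2, h3⟩ a z
    by_cases hK : K a z
    · rw [← h3 z ⟨a, hK⟩]
      exact Finset.single_le_sum (f := fun b => p b z) (fun b _ => h1 b z) (Finset.mem_univ a)
    · rw [h2 a z hK]
      exact (hw z).le
  have hclosed : IsClosed P := by
    have e : P = (⋂ a, ⋂ z, {p : V → V → ℝ | 0 ≤ p a z}) ∩
        ((⋂ a, ⋂ z, {p : V → V → ℝ | ¬ K a z → p a z = 0}) ∩
        (⋂ z, {p : V → V → ℝ | (∃ a, K a z) → ∑ a, p a z = w z})) := by
      ext p
      simp [P]
    rw [e]
    refine IsClosed.inter ?_ (IsClosed.inter ?_ ?_)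
    · exact isClosed_iInter fun a => isClosed_iInter fun z =>
        isClosed_le continuous_const (by fun_prop)
    · refine isClosed_iInter fun a => isClosed_iInter fun z => ?_
      by_cases hK : K a z
      · simp [hK]
      · simp only [hK, not_false_eq_true, forall_const]
        exact isClosed_eq (by fun_prop) continuous_const
    · refine isClosed_iInter fun z => ?_
      by_cases hK : ∃ a, K a z
      · simp only [hK, forall_const]
        exact isClosed_eq (by fun_prop) continuous_const
      · simp [hK]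
  have hcomp : IsCompact P := by
    have hbig : IsCompact (Set.pi Set.univ fun _ : V => Set.pi Set.univ fun z : V =>
        Set.Icc (0 : ℝ) (w z)) :=
      isCompact_univ_pi fun _ => isCompact_univ_pi fun z => isCompact_Icc
    refine hbig.of_isClosed_subset hclosed ?_
    intro p hp
    simp only [Set.mem_pi, Set.mem_univ, forall_true_left, Set.mem_Icc]
    exact fun a z => ⟨hp.1 a z, hle p hp a z⟩
  have hne : P.Nonempty := by
    refine ⟨fun a z => if h : ∃ a, K a z then (if a = h.choose then w z else 0) else 0,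
      ?_, ?_, ?_⟩
    · intro a z
      dsimp only
      split_ifs
      · exact (hw z).le
      · exact le_rfl
      · exact le_rfl
    · intro a z hK
      dsimp only
      split_ifs with h h'
      · exact absurd (h' ▸ h.choose_spec) hK
      · rfl
      · rfl
    · intro z hz
      simp only [dif_pos hz]
      rw [Finset.sum_ite_eq' Finset.univ hz.choose (fun _ => w z)]
      simp
  obtain ⟨p, hp, hmin⟩ := hcomp.exists_isMinOn (f := fun p => ∑ a, (rcv p a) ^ 2 / w a) hne
    (by unfold rcv; fun_prop)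
  refine ⟨p, hp.1, hp.2.1, hp.2.2, ?_⟩
  intro a b z hpos hK
  by_contra hlt
  push Not at hlt
  have hab : a ≠ b := by
    rintro rfl
    exact lt_irrefl _ hlt
  -- move `d` from `a` to `b`
  obtain ⟨d, hd0, hd1, hd2⟩ : ∃ d : ℝ, 0 < d ∧ d ≤ p a z ∧
      d * (1 / w a + 1 / w b) < 2 * (rcv p a / w a - rcv p b / w b) := by
    have hc : 0 < 1 / w a + 1 / w b := by
      have := hw a
      have := hw b
      positivity
    have hx : 0 < rcv p a / w a - rcv p b / w b := by linarith
    refine ⟨min (p a z) ((rcv p a / w a - rcv p b / w b) / (1 / w a + 1 / w b)),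
      lt_min hpos (div_pos hx hc), min_le_left _ _, ?_⟩
    have h1 := min_le_right (p a z) ((rcv p a / w a - rcv p b / w b) / (1 / w a + 1 / w b))
    have h2 := mul_le_mul_of_nonneg_right h1 hc.le
    rw [div_mul_cancel₀ _ hc.ne'] at h2
    linarith
  let q : V → V → ℝ := fun c y => p c y + (if c = b ∧ y = z then d else 0) -
    (if c = a ∧ y = z then d else 0)
  have hKa : K a z := by
    by_contra hn
    rw [hp.2.1 a z hn] at hpos
    exact lt_irrefl _ hpos
  have hq : q ∈ P := by
    refine ⟨?_, ?_, ?_⟩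
    · intro c y
      have h0 := hp.1 c y
      by_cases h1 : c = a ∧ y = z
      · obtain ⟨rfl, rfl⟩ := h1
        simp only [q, hab, false_and, if_false, and_self, if_true]
        linarith
      · simp only [q, h1, if_false, sub_zero]
        split_ifs <;> linarith
    · intro c y hn
      have h1 : ¬ (c = a ∧ y = z) := by
        rintro ⟨rfl, rfl⟩
        exact hn hKa
      have h2 : ¬ (c = b ∧ y = z) := by
        rintro ⟨rfl, rfl⟩
        exact hn hK
      simp [q, h1, h2, hp.2.1 c y hn]
    · intro y hy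
      have h1 : ∑ c, q c y = ∑ c, p c y + (∑ c, (if c = b ∧ y = z then d else 0)) -
          ∑ c, (if c = a ∧ y = z then d else 0) := by
        rw [← Finset.sum_add_distrib, ← Finset.sum_sub_distrib]
      rw [h1, hp.2.2 y hy]
      by_cases hyz : y = z
      · simp [hyz]
      · simp [hyz]
  have hrec : ∀ c, rcv q c = rcv p c + (if c = b then d else 0) - (if c = a then d else 0) := by
    intro c
    have h1 : rcv q c = rcv p c + (∑ y, (if c = b ∧ y = z then d else 0)) -
        ∑ y, (if c = a ∧ y = z then d else 0) := by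
      unfold rcv
      rw [← Finset.sum_add_distrib, ← Finset.sum_sub_distrib]
    rw [h1]
    have e : ∀ x : V, (∑ y, (if c = x ∧ y = z then d else 0)) = if c = x then d else 0 := by
      intro x
      by_cases hx : c = x
      · simp [hx]
      · simp [hx]
    rw [e, e]
  have hle2 : ∑ c, (rcv p c) ^ 2 / w c ≤ ∑ c, (rcv q c) ^ 2 / w c := hmin hq
  have hdiff : ∑ c, (rcv q c) ^ 2 / w c = ∑ c, (rcv p c) ^ 2 / w c +
      ((rcv p b + d) ^ 2 / w b - (rcv p b) ^ 2 / w b) +
      ((rcv p a - d) ^ 2 / w a - (rcv p a) ^ 2 / w a) := by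
    have h1 : ∀ c, (rcv q c) ^ 2 / w c = (rcv p c) ^ 2 / w c +
        (if c = b then ((rcv p b + d) ^ 2 / w b - (rcv p b) ^ 2 / w b) else 0) +
        (if c = a then ((rcv p a - d) ^ 2 / w a - (rcv p a) ^ 2 / w a) else 0) := by
      intro c
      rw [hrec c]
      by_cases hb : c = b
      · subst hb
        have : ¬ c = a := fun h => hab h.symm
        simp only [if_true, this, if_false]
        ring
      · by_cases ha : c = a
        · subst ha
          simp only [if_true, hb, if_false]
          ring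
        · simp only [hb, ha, if_false]
          ring
    rw [Finset.sum_congr rfl fun c _ => h1 c, Finset.sum_add_distrib, Finset.sum_add_distrib]
    simp
  rw [hdiff] at hle2
  have hwa := hw a
  have hwb := hw b
  have e1 : (rcv p b + d) ^ 2 / w b - (rcv p b) ^ 2 / w b = 2 * d * (rcv p b / w b) +
      d * (d * (1 / w b)) := by
    field_simp
    ring
  have e2 : (rcv p a - d) ^ 2 / w a - (rcv p a) ^ 2 / w a = - (2 * d * (rcv p a / w a)) +
      d * (d * (1 / w a)) := by
    field_simp
    ring
  rw [e1, e2] at hle2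
  have h3 : d * (d * (1 / w a + 1 / w b)) < d * (2 * (rcv p a / w a - rcv p b / w b)) :=
    mul_lt_mul_of_pos_left hd2 hd0
  nlinarith [h3, hle2]

/-- **Lower bound**: under Hall's condition every agent of `S` gets at least its weight. -/
theorem Alloc.ge_weight {w : V → ℝ} (hw : ∀ v, 0 < w v) {K : V → V → Prop} {p : V → V → ℝ}
    (h : Alloc w K p) (S : Finset V)
    (hS : ∀ a z, K a z → a ∈ S)
    (hall : ∀ T : Finset V, T ⊆ S → ∀ O : Finset V, (∀ z, z ∈ O ↔ ∃ a ∈ T, K a z) →
      ∑ a ∈ T, w a ≤ ∑ z ∈ O, w z) :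
    ∀ a ∈ S, w a ≤ rcv p a := by
  classical
  intro a0 ha0
  obtain ⟨m, hm, hmin⟩ := Finset.exists_min_image S (fun a => rcv p a / w a) ⟨a0, ha0⟩
  let T := S.filter fun a => rcv p a / w a = rcv p m / w m
  have hmT : m ∈ T := Finset.mem_filter.2 ⟨hm, rfl⟩
  have h1 := hall T (Finset.filter_subset _ _) (Finset.univ.filter fun z => ∃ a ∈ T, K a z)
    (fun z => by simp)
  have h2 : ∑ z ∈ Finset.univ.filter (fun z => ∃ a ∈ T, K a z), w z ≤ ∑ a ∈ T, rcv p a := by
    unfold rcv
    rw [Finset.sum_comm]
    refine le_trans ?_ (Finset.sum_le_sum_of_subset_of_nonneg (Finset.filter_subset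
      (fun z => ∃ a ∈ T, K a z) Finset.univ)
      fun z _ _ => Finset.sum_nonneg fun a _ => h.nonneg a z)
    refine Finset.sum_le_sum fun z hz => ?_
    obtain ⟨-, a, haT, hK⟩ := Finset.mem_filter.1 hz
    rw [← h.full z ⟨a, hK⟩]
    refine le_of_eq (Finset.sum_subset (Finset.subset_univ T) ?_).symm
    intro b _ hb
    by_contra hne
    have hpos : 0 < p b z := lt_of_le_of_ne (h.nonneg b z) (Ne.symm hne)
    have hbS : b ∈ S := hS b z (h.claim hpos)
    have h3 := h.kkt b a z hpos hK
    have h4 := (Finset.mem_filter.1 haT).2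
    rw [h4] at h3
    exact hb (Finset.mem_filter.2 ⟨hbS, le_antisymm h3 (hmin b hbS)⟩)
  have h3 : ∑ a ∈ T, rcv p a = (rcv p m / w m) * ∑ a ∈ T, w a := by
    rw [Finset.mul_sum]
    refine Finset.sum_congr rfl fun a ha => ?_
    rw [← (Finset.mem_filter.1 ha).2, div_mul_cancel₀ _ (hw a).ne']
  have h4 : 0 < ∑ a ∈ T, w a := Finset.sum_pos (fun a _ => hw a) ⟨m, hmT⟩
  have h5 : 1 ≤ rcv p m / w m := by
    by_contra hlt
    push Not at hlt
    have := mul_lt_mul_of_pos_right hlt h4
    linarith
  have h6 := le_trans h5 (hmin a0 ha0)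
  rwa [le_div_iff₀ (hw a0), one_mul] at h6

/-- **Total**: what is received by the agents is the total size of the claimed objects. -/
theorem Alloc.total {w : V → ℝ} {K : V → V → Prop} {p : V → V → ℝ} (h : Alloc w K p)
    (S O : Finset V) (hS : ∀ a z, K a z → a ∈ S) (hO : ∀ z, z ∈ O ↔ ∃ a, K a z) :
    ∑ a ∈ S, rcv p a = ∑ z ∈ O, w z := by
  classical
  unfold rcv
  rw [Finset.sum_comm]
  rw [← Finset.sum_subset (Finset.subset_univ O)]
  · refine Finset.sum_congr rfl fun z hz => ?_
    rw [← h.full z ((hO z).1 hz)]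
    refine Finset.sum_subset (Finset.subset_univ S) fun a _ ha => ?_
    exact h.supp a z fun hK => ha (hS a z hK)
  · intro z _ hz
    refine Finset.sum_eq_zero fun a _ => h.supp a z fun hK => hz ((hO z).2 ⟨a, hK⟩)

/-- **Monotonicity**: an agent whose claimed objects have fewer claimants in the second problem
gets at least as much there. -/
theorem Alloc.mono {w : V → ℝ} (hw : ∀ v, 0 < w v) {K K' : V → V → Prop} {p p' : V → V → ℝ}
    (h : Alloc w K p) (h' : Alloc w K' p') (S : V → Prop)
    (hS : ∀ a z, S a → K a z → K' a z ∧ ∀ b, K' b z → K b z ∧ S b) :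
    ∀ a, S a → rcv p a ≤ rcv p' a := by
  classical
  intro a0 ha0
  by_contra hlt
  push Not at hlt
  let E := Finset.univ.filter fun a => S a ∧ rcv p' a / w a < rcv p a / w a
  have hE : E.Nonempty := ⟨a0, Finset.mem_filter.2 ⟨Finset.mem_univ _, ha0,
    div_lt_div_of_pos_right hlt (hw a0)⟩⟩
  obtain ⟨m, hm, hmin⟩ := Finset.exists_min_image E (fun a => rcv p' a / w a) hE
  let T := E.filter fun a => rcv p' a / w a = rcv p' m / w m
  have hmT : m ∈ T := Finset.mem_filter.2 ⟨hm, rfl⟩
  have h1 : ∑ a ∈ T, rcv p a ≤ ∑ a ∈ T, rcv p' a := by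
    unfold rcv
    rw [Finset.sum_comm, Finset.sum_comm (s := T)]
    refine Finset.sum_le_sum fun z _ => ?_
    by_cases hz : ∃ a ∈ T, 0 < p a z
    · obtain ⟨a, haT, hpa⟩ := hz
      have haE := (Finset.mem_filter.1 haT).1
      have hSa := (Finset.mem_filter.1 haE).2.1
      have hKa := h.claim hpa
      obtain ⟨hK'a, hcl⟩ := hS a z hSa hKa
      refine le_trans (h.le_full hKa T) ?_
      rw [← h'.full z ⟨a, hK'a⟩]
      refine le_of_eq (Finset.sum_subset (Finset.subset_univ T) ?_).symm
      intro b _ hb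
      by_contra hne
      have hpos : 0 < p' b z := lt_of_le_of_ne (h'.nonneg b z) (Ne.symm hne)
      obtain ⟨hKb, hSb⟩ := hcl b (h'.claim hpos)
      have h3 := h'.kkt b a z hpos hK'a
      have h4 := h.kkt a b z hpa hKb
      have h5 := (Finset.mem_filter.1 haE).2.2
      have h6 := (Finset.mem_filter.1 haT).2
      have hbE : b ∈ E := Finset.mem_filter.2 ⟨Finset.mem_univ _, hSb, by linarith⟩
      have h7 := hmin b hbE
      exact hb (Finset.mem_filter.2 ⟨hbE, le_antisymm (by linarith) h7⟩)
    · push Not at hz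
      have : ∑ a ∈ T, p a z ≤ 0 := Finset.sum_nonpos fun a ha => hz a ha
      exact le_trans this (Finset.sum_nonneg fun a _ => h'.nonneg a z)
  have h2 : ∑ a ∈ T, rcv p' a < ∑ a ∈ T, rcv p a := by
    refine Finset.sum_lt_sum_of_nonempty ⟨m, hmT⟩ fun a ha => ?_
    have h5 := (Finset.mem_filter.1 (Finset.mem_filter.1 ha).1).2.2
    exact (div_lt_div_iff_of_pos_right (hw a)).1 h5
  linarith

end Vale.Agent.P038.H623
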