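import Vale.Agent.P038.H623.Alloc

/-!
# P038 (H623): the inequality (club)
-/

namespace Vale.Agent.P038.H623

open Finset

variable {V : Type*} [Fintype V]

open Classical in
/-- The weight of a set given by a predicate. -/
noncomputable def ms (w : V → ℝ) (P : V → Prop) : ℝ := ∑ v, if P v then w v else 0

/-- The product weight of a relation (columns outside). -/
noncomputable def mu (w : V → ℝ) (R : V → V → Prop) : ℝ := ∑ y, w y * ms w (fun a => R a y)

theorem ms_mono {w : V → ℝ} (hw : ∀ v, 0 < w v) {P Q : V → Prop} (h : ∀ v, P v → Q v) :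
    ms w P ≤ ms w Q := by
  classical
  unfold ms
  refine Finset.sum_le_sum fun v _ => ?_
  by_cases hP : P v
  · simp [hP, h v hP]
  · simp only [hP, if_false]
    split_ifs
    · exact (hw v).le
    · exact le_rfl

theorem ms_nonneg {w : V → ℝ} (hw : ∀ v, 0 < w v) (P : V → Prop) : 0 ≤ ms w P := by
  classical
  unfold ms
  exact Finset.sum_nonneg fun v _ => by split_ifs <;> [exact (hw v).le; exact le_rfl]

theorem sum_filter_eq_ms (w : V → ℝ) (P : V → Prop) (S : Finset V) (h : ∀ v, v ∈ S ↔ P v) :
    ∑ v ∈ S, w v = ms w P := by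
  classical
  unfold ms
  rw [← Finset.sum_filter]
  refine Finset.sum_congr ?_ fun _ _ => rfl
  ext v
  simp [h v]

/-- layer cake by induction on the number of positive values -/
theorem layer_aux {w : V → ℝ} (hw : ∀ v, 0 < w v) (A : V → V → Prop) (G T : V → Prop)
    (hall : ∀ S : V → Prop, (∀ y, S y → G y) →
      ms w S ≤ ms w (fun y' => T y' ∧ ∃ y, S y ∧ A y y')) (n : ℕ) :
    ∀ f g : V → ℝ, (∀ y, 0 ≤ f y) → (∀ y, 0 < f y → G y) → (∀ y, T y → 0 ≤ g y) →
      (∀ y y', 0 < f y → T y' → A y y' → f y ≤ g y') →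
      (∀ S : Finset V, (∀ y ∈ S, 0 < f y) → S.card ≤ n) →
      ∑ y, w y * f y ≤ ms (fun y => w y * g y) T := by
  classical
  have base : ∀ f g : V → ℝ, (∀ y, 0 ≤ f y) → (∀ y, T y → 0 ≤ g y) → (∀ y, ¬ 0 < f y) →
      ∑ y, w y * f y ≤ ms (fun y => w y * g y) T := by
    intro f g h0 hg hn
    have h1 : ∑ y, w y * f y = 0 := Finset.sum_eq_zero fun y _ => by
      have : f y = 0 := le_antisymm (not_lt.1 (hn y)) (h0 y)
      rw [this, mul_zero]
    rw [h1]
    unfold ms
    refine Finset.sum_nonneg fun y _ => ?_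
    split_ifs with hT
    · exact mul_nonneg (hw y).le (hg y hT)
    · exact le_rfl
  induction n with
  | zero =>
    intro f g h0 _ hg _ hc
    refine base f g h0 hg fun y hy => ?_
    have := hc {y} (fun z hz => by rw [Finset.mem_singleton.1 hz]; exact hy)
    simp at this
  | succ n ih =>
    intro f g h0 hG hg hfg hc
    by_cases hex : ∃ y, 0 < f y
    swap
    · push Not at hex
      exact base f g h0 hg fun y => not_lt.2 (hex y)
    obtain ⟨y0, hy0⟩ := hex
    obtain ⟨m, hm, hmin⟩ := Finset.exists_min_image (Finset.univ.filter fun y => 0 < f y) f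
      ⟨y0, by simp [hy0]⟩
    have hfm : 0 < f m := (Finset.mem_filter.1 hm).2
    have hmin' : ∀ y, 0 < f y → f m ≤ f y := fun y hy => hmin y (by simp [hy])
    let f' : V → ℝ := fun y => if 0 < f y then f y - f m else 0
    let N : V → Prop := fun y' => ∃ y, 0 < f y ∧ A y y'
    let g' : V → ℝ := fun y' => if N y' then g y' - f m else g y'
    have h1 := ih f' g' ?_ ?_ ?_ ?_ ?_
    · have h2 : ∑ y, w y * f y = ∑ y, w y * f' y + f m * ms w (fun y => 0 < f y) := by
        unfold ms
        rw [Finset.mul_sum, ← Finset.sum_add_distrib]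
        refine Finset.sum_congr rfl fun y _ => ?_
        by_cases hy : 0 < f y
        · simp only [f', hy, if_true]; ring
        · have : f y = 0 := le_antisymm (not_lt.1 hy) (h0 y)
          simp [f', this]
      have h3 : ms (fun y => w y * g y) T = ms (fun y => w y * g' y) T +
          f m * ms w (fun y' => T y' ∧ ∃ y, 0 < f y ∧ A y y') := by
        unfold ms
        rw [Finset.mul_sum, ← Finset.sum_add_distrib]
        refine Finset.sum_congr rfl fun y _ => ?_
        by_cases hT : T y
        · by_cases hN : N y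
          · have hN' : ∃ x, 0 < f x ∧ A x y := hN
            simp only [hT, g', hN, hN', and_self, if_true]; ring
          · have hN' : ¬ ∃ x, 0 < f x ∧ A x y := hN
            simp only [hT, g', hN, hN', and_false, if_true, if_false]; ring
        · simp [hT]
      have h4 := hall (fun y => 0 < f y) hG
      have h5 := mul_le_mul_of_nonneg_left h4 hfm.le
      rw [h2, h3]
      linarith
    · intro y
      by_cases hy : 0 < f y
      · simp only [f', hy, if_true]
        have := hmin' y hy
        linarith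
      · simp [f', hy]
    · intro y hy
      by_cases hy' : 0 < f y
      · exact hG y hy'
      · simp [f', hy'] at hy
    · intro y hT
      by_cases hN : N y
      · obtain ⟨x, hx, hxy⟩ := hN
        have hN' : N y := ⟨x, hx, hxy⟩
        simp only [g', hN', if_true]
        have := hfg x y hx hT hxy
        have := hmin' x hx
        linarith
      · simp only [g', hN, if_false]
        exact hg y hT
    · intro y y' hy hT hA
      have hy' : 0 < f y := by
        by_contra hn
        simp [f', hn] at hy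
      have hN : N y' := ⟨y, hy', hA⟩
      simp only [f', g', hy', hN, if_true]
      have := hfg y y' hy' hT hA
      linarith
    · intro S hS
      have hmS : m ∉ S := by
        intro hmem
        have := hS m hmem
        simp [f', hfm] at this
      have h6 := hc (insert m S) (fun y hy => by
        rcases Finset.mem_insert.1 hy with rfl | hy
        · exact hfm
        · by_contra hn
          have := hS y hy
          simp [f', hn] at this)
      rw [Finset.card_insert_of_notMem hmS] at h6
      omega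

theorem layer {w : V → ℝ} (hw : ∀ v, 0 < w v) (A : V → V → Prop) (G T : V → Prop)
    (hall : ∀ S : V → Prop, (∀ y, S y → G y) →
      ms w S ≤ ms w (fun y' => T y' ∧ ∃ y, S y ∧ A y y'))
    (f g : V → ℝ) (h0 : ∀ y, G y → 0 ≤ f y) (hg : ∀ y, T y → 0 ≤ g y)
    (hfg : ∀ y y', G y → T y' → A y y' → f y ≤ g y') :
    ms (fun y => w y * f y) G ≤ ms (fun y => w y * g y) T := by
  classical
  have h1 := layer_aux hw A G T hall (Fintype.card V) (fun y => if G y then f y else 0) g
    (fun y => by
      by_cases h : G y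
      · simpa [h] using h0 y h
      · simp [h])
    (fun y hy => by
      by_contra hn
      simp [hn] at hy)
    hg
    (fun y y' hy hT hA => by
      have hGy : G y := by
        by_contra hn
        simp [hn] at hy
      simp only [hGy, if_true]
      exact hfg y y' hGy hT hA)
    (fun S _ => Finset.card_le_univ S)
  refine le_trans (le_of_eq ?_) h1
  unfold ms
  refine Finset.sum_congr rfl fun y _ => ?_
  by_cases h : G y <;> simp [h]

/-- **(club)**. `B` rows, `U` columns. -/
theorem club {w : V → ℝ} (hw : ∀ v, 0 < w v) (A B U : V → V → Prop)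
    (hR : ∀ a, ∀ S : V → Prop, (∀ y, S y → U a y ∧ ¬ B a y) →
      ms w S ≤ ms w (fun y' => (∃ y, S y ∧ A y y') ∧ ¬ ∃ x, B a x ∧ A x y'))
    (hC : ∀ y, ∀ S : V → Prop, (∀ a, S a → U a y ∧ ¬ B a y) →
      ms w S ≤ ms w (fun z => (∀ a, A a z → U a y) ∧ ∃ a, S a ∧ A a z)) :
    mu w (fun a y => (∃ x, U a x ∧ A x y) ∧ ¬ ∃ x, B a x ∧ A x y) +
      mu w (fun z y => (∀ a, A a z → U a y) ∧ ∃ a, (U a y ∧ ¬ B a y) ∧ A a z) ≤
    mu w (fun a y => U a y ∧ ¬ B a y) +
      mu w (fun z y => (∀ a, A a z → ∃ x, U a x ∧ A x y) ∧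
        ∃ a, ((∃ x, U a x ∧ A x y) ∧ ¬ ∃ x, B a x ∧ A x y) ∧ A a z) := by
  classical
  -- the two families of allocation problems
  let G : V → V → Prop := fun a y => U a y ∧ ¬ B a y
  let T : V → V → Prop := fun a y => (∃ x, U a x ∧ A x y) ∧ ¬ ∃ x, B a x ∧ A x y
  let K : V → V → V → Prop := fun y a z => G a y ∧ (∀ b, A b z → U b y) ∧ A a z
  let K' : V → V → V → Prop := fun y a z =>
    T a y ∧ (∀ b, A b z → ∃ x, U b x ∧ A x y) ∧ A a z
  choose p hp using fun y => exists_alloc w hw (K y)
  choose p' hp' using fun y => exists_alloc w hw (K' y)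
  have hge : ∀ y a, G a y → w a ≤ rcv (p y) a := by
    intro y a ha
    refine (hp y).ge_weight hw (Finset.univ.filter fun a => G a y)
      (fun b z hb => by simpa using hb.1) ?_ a (by simpa using ha)
    intro S hS O hO
    rw [sum_filter_eq_ms w (fun a => a ∈ S) S (fun v => Iff.rfl),
      sum_filter_eq_ms w (fun z => (∀ a, A a z → U a y) ∧ ∃ a, a ∈ S ∧ A a z) O ?_]
    · exact hC y (fun a => a ∈ S) fun a ha => (Finset.mem_filter.1 (hS ha)).2
    · intro z
      rw [hO z]
      constructor
      · rintro ⟨b, hb, -, h2, h3⟩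
        exact ⟨h2, b, hb, h3⟩
      · rintro ⟨h2, b, hb, h3⟩
        exact ⟨b, hb, (Finset.mem_filter.1 (hS hb)).2, h2, h3⟩
  have hmono : ∀ y y' a, A y y' → G a y → T a y' → rcv (p y) a ≤ rcv (p' y') a := by
    intro y y' a hA hGa hTa
    refine (hp y).mono hw (hp' y') (fun b => G b y ∧ T b y') ?_ a ⟨hGa, hTa⟩
    rintro b z ⟨hGb, hTb⟩ ⟨-, h2, h3⟩
    refine ⟨⟨hTb, fun c hc => ⟨y, h2 c hc, hA⟩, h3⟩, ?_⟩
    rintro c ⟨hTc, -, hc3⟩
    have hGc : G c y := ⟨h2 c hc3, fun hB => hTc.2 ⟨y, hB, hA⟩⟩
    exact ⟨⟨hGc, h2, hc3⟩, hGc, hTc⟩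
  have hrow : ∀ a, ms (fun y => w y * (rcv (p y) a - w a)) (fun y => G a y) ≤
      ms (fun y => w y * (rcv (p' y) a - w a)) (fun y => T a y) := by
    intro a
    refine layer hw A (fun y => G a y) (fun y => T a y) ?_ (fun y => rcv (p y) a - w a)
      (fun y => rcv (p' y) a - w a) ?_ ?_ ?_
    · intro S hS
      refine le_trans (hR a S hS) (ms_mono hw ?_)
      rintro y' ⟨⟨y, hy, hyy⟩, hn⟩
      exact ⟨⟨⟨y, (hS y hy).1, hyy⟩, hn⟩, y, hy, hyy⟩
    · intro y hy
      have := hge y a hy
      linarith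
    · intro y' hy'
      obtain ⟨⟨y, hU, hA⟩, hn⟩ := hy'
      have hGa : G a y := ⟨hU, fun hB => hn ⟨y, hB, hA⟩⟩
      have h1 := hge y a hGa
      have h2 := hmono y y' a hA hGa ⟨⟨y, hU, hA⟩, hn⟩
      linarith
    · intro y y' hy hT hA
      have := hmono y y' a hA hy hT
      linarith
  have hsum := Finset.sum_le_sum fun a (_ : a ∈ Finset.univ) => hrow a
  have key : ∀ (q : V → V → V → ℝ) (P : V → V → Prop) (L : V → V → V → Prop),
      (∀ y, Alloc w (L y) (q y)) → (∀ y a z, L y a z → P a y) →
      ∑ a, ms (fun y => w y * (rcv (q y) a - w a)) (fun y => P a y) =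
        mu w (fun z y => ∃ a, L y a z) - mu w P := by
    intro q P L hq hL
    have e0 : ∑ a, ms (fun y => w y * (rcv (q y) a - w a)) (fun y => P a y) =
        ∑ y, w y * (ms (rcv (q y)) (fun a => P a y) - ms w (fun a => P a y)) := by
      unfold ms
      rw [Finset.sum_comm]
      refine Finset.sum_congr rfl fun y _ => ?_
      rw [← Finset.sum_sub_distrib, Finset.mul_sum]
      refine Finset.sum_congr rfl fun a _ => ?_
      by_cases h : P a y <;> simp [h]
    rw [e0]
    unfold mu
    rw [← Finset.sum_sub_distrib]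
    refine Finset.sum_congr rfl fun y _ => ?_
    have h1 := (hq y).total (Finset.univ.filter fun a => P a y)
      (Finset.univ.filter fun z => ∃ a, L y a z) (fun a z h => by simpa using hL y a z h)
      (fun z => by simp)
    rw [sum_filter_eq_ms (rcv (q y)) (fun a => P a y) _ (fun v => by simp),
      sum_filter_eq_ms w (fun z => ∃ a, L y a z) _ (fun v => by simp)] at h1
    rw [h1]
    ring
  rw [key p G K hp (fun y a z h => h.1), key p' T K' hp' (fun y a z h => h.1)] at hsum
  have e1 : mu w (fun z y => ∃ a, K y a z) =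
      mu w (fun z y => (∀ a, A a z → U a y) ∧ ∃ a, (U a y ∧ ¬ B a y) ∧ A a z) := by
    congr 1
    funext z y
    apply propext
    constructor
    · rintro ⟨a, h1, h2, h3⟩
      exact ⟨h2, a, h1, h3⟩
    · rintro ⟨h2, a, h1, h3⟩
      exact ⟨a, h1, h2, h3⟩
  have e2 : mu w (fun z y => ∃ a, K' y a z) =
      mu w (fun z y => (∀ a, A a z → ∃ x, U a x ∧ A x y) ∧
        ∃ a, ((∃ x, U a x ∧ A x y) ∧ ¬ ∃ x, B a x ∧ A x y) ∧ A a z) := by
    congr 1
    funext z y
    apply propext
    constructor
    · rintro ⟨a, h1, h2, h3⟩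
      exact ⟨h2, a, h1, h3⟩
    · rintro ⟨h2, a, h1, h3⟩
      exact ⟨a, h1, h2, h3⟩
  rw [e1, e2] at hsum
  have e3 : mu w G = mu w (fun a y => U a y ∧ ¬ B a y) := rfl
  have e4 : mu w T = mu w (fun a y => (∃ x, U a x ∧ A x y) ∧ ¬ ∃ x, B a x ∧ A x y) := rfl
  linarith

end Vale.Agent.P038.H623
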