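import Vale.Agent.P038.H623.Club

/-!
# P038 (H623): the inner minimum is at most the outer minimum
-/

namespace Vale.Agent.P038.H623

open Finset

variable {V : Type*} [Fintype V]

/-- the weight of the outer boundary of the set `S` -/
noncomputable def bd (w : V → ℝ) (A : V → V → Prop) (S : V → Prop) : ℝ :=
  ms w (fun z => (∃ x, S x ∧ A x z) ∧ ¬ S z)

/-- the cost of a family of sets -/
noncomputable def cost (w : V → ℝ) (A B : V → V → Prop) : ℝ := ∑ a, w a * bd w A (B a)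

/-- outer pairs -/
def Outer (A B C : V → V → Prop) : Prop :=
  (∀ a y, A a y → B a y) ∧ (∀ a y, A a y → C a y) ∧ ∀ a y, B a y → C y a → a = y

/-- inner pairs -/
def Inner (A X Y : V → V → Prop) : Prop :=
  (∀ a, X a a) ∧ (∀ a, Y a a) ∧
    ∀ a y, (∃ x, X a x ∧ A x y) → (∃ z, Y y z ∧ A z a) → a = y

omit [Fintype V] in
theorem Outer.symm {A B C : V → V → Prop} (h : Outer A B C) : Outer A C B :=
  ⟨h.2.1, h.1, fun a y h1 h2 => (h.2.2 y a h2 h1).symm⟩

/-- adding a set disjoint from `P` -/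
theorem bd_union {w : V → ℝ} (hw : ∀ v, 0 < w v) {A : V → V → Prop} (hA : ∀ a, A a a)
    (P S : V → Prop) (hS : ∀ y, S y → ¬ P y) :
    bd w A (fun y => P y ∨ S y) + ms w S ≤
      bd w A P + ms w (fun y' => (∃ y, S y ∧ A y y') ∧ ¬ ∃ x, P x ∧ A x y') := by
  classical
  unfold bd ms
  rw [← Finset.sum_add_distrib, ← Finset.sum_add_distrib]
  refine Finset.sum_le_sum fun z _ => ?_
  have hwz := hw z
  by_cases h1 : P z
  · have h2 : ¬ S z := fun h => hS z h h1
    simp only [h1, true_or, not_true_eq_false, and_false, if_false, h2, zero_add]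
    split_ifs <;> linarith
  · by_cases h2 : S z
    · have h3 : ∃ y, S y ∧ A y z := ⟨z, h2, hA z⟩
      by_cases h4 : ∃ x, P x ∧ A x z
      · simp [h1, h2, h4]
      · simp [h1, h2, h3, h4]
    · by_cases h4 : ∃ x, P x ∧ A x z
      · simp only [h1, h2, h4, or_self, not_false_eq_true, and_true, and_false, if_false,
          if_true, not_true_eq_false]
        split_ifs <;> linarith
      · by_cases h5 : ∃ y, S y ∧ A y z
        · simp only [h1, h2, h4, h5, or_self, not_false_eq_true, and_true, if_false,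
            if_true, and_self]
          split_ifs <;> linarith
        · have h6 : ¬ ∃ x, (P x ∨ S x) ∧ A x z := by
            rintro ⟨x, hx | hx, hxz⟩
            · exact h4 ⟨x, hx, hxz⟩
            · exact h5 ⟨x, hx, hxz⟩
          simp [h1, h2, h4, h5, h6]

theorem opt_row {w : V → ℝ} (hw : ∀ v, 0 < w v) {A B C : V → V → Prop} (hA : ∀ a, A a a)
    (hO : Outer A B C)
    (hmin : ∀ B' C', Outer A B' C' → cost w A B + cost w A C ≤ cost w A B' + cost w A C')
    (a : V) (S : V → Prop) (hS : ∀ y, S y → ¬ B a y ∧ ¬ C y a) :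
    ms w S ≤ ms w (fun y' => (∃ y, S y ∧ A y y') ∧ ¬ ∃ x, B a x ∧ A x y') := by
  classical
  let B' : V → V → Prop := fun a' y => B a' y ∨ (a' = a ∧ S y)
  have hO' : Outer A B' C := by
    refine ⟨fun b y h => Or.inl (hO.1 b y h), hO.2.1, ?_⟩
    rintro b y (h | ⟨rfl, h⟩) hC
    · exact hO.2.2 b y h hC
    · exact absurd hC (hS y h).2
  have h1 := hmin B' C hO'
  have h2 : cost w A B' = cost w A B + w a * (bd w A (fun y => B a y ∨ S y) - bd w A (B a)) := by
    have e : ∀ b, w b * bd w A (B' b) = w b * bd w A (B b) +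
        (if b = a then w a * (bd w A (fun y => B a y ∨ S y) - bd w A (B a)) else 0) := by
      intro b
      by_cases hb : b = a
      · subst hb
        have e1 : B' b = fun y => B b y ∨ S y := by
          funext y
          simp [B']
        rw [e1]
        simp only [if_true]
        ring
      · have e1 : B' b = B b := by
          funext y
          simp [B', hb]
        rw [e1]
        simp [hb]
    unfold cost
    rw [Finset.sum_congr rfl fun b _ => e b, Finset.sum_add_distrib]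
    simp
  have h3 := bd_union hw hA (B a) S fun y hy => (hS y hy).1
  have h4 : 0 ≤ bd w A (fun y => B a y ∨ S y) - bd w A (B a) := by
    by_contra hn
    push Not at hn
    have := mul_neg_of_pos_of_neg (hw a) hn
    linarith
  linarith

open Classical in
/-- indicator of a proposition -/
noncomputable def ind (p : Prop) : ℝ := if p then 1 else 0

theorem mu_eq (w : V → ℝ) (R : V → V → Prop) :
    mu w R = ∑ y, ∑ a, w y * w a * ind (R a y) := by
  classical
  unfold mu ms ind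
  refine Finset.sum_congr rfl fun y _ => ?_
  rw [Finset.mul_sum]
  refine Finset.sum_congr rfl fun a _ => ?_
  by_cases h : R a y <;> simp [h]

theorem rows_eq (w : V → ℝ) (R : V → V → Prop) : ∑ a, w a * ms w (R a) = mu w R := by
  classical
  unfold mu ms
  simp only [Finset.mul_sum]
  rw [Finset.sum_comm]
  refine Finset.sum_congr rfl fun y _ => Finset.sum_congr rfl fun a _ => ?_
  by_cases h : R a y
  · simp only [h, if_true]; ring
  · simp [h]

theorem cost_eq_rows (w : V → ℝ) (A B : V → V → Prop) :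
    cost w A B = mu w (fun a y => (∃ x, B a x ∧ A x y) ∧ ¬ B a y) := by
  rw [← rows_eq]
  rfl

theorem cost_eq_cols (w : V → ℝ) (A C : V → V → Prop) :
    cost w A C = mu w (fun z y => (∃ x, C y x ∧ A x z) ∧ ¬ C y z) := rfl

theorem ind_sub {p q : Prop} (h : q → p) : ind (p ∧ ¬ q) = ind p - ind q := by
  classical
  unfold ind
  by_cases hq : q
  · simp [hq, h hq]
  · by_cases hp : p <;> simp [hp, hq]

theorem ind_sub' {p q : Prop} (h : q → p) : ind (¬ q ∧ p) = ind p - ind q := by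
  rw [← ind_sub h, and_comm]

theorem ind_nonneg (p : Prop) : 0 ≤ ind p := by
  classical
  unfold ind
  split_ifs <;> norm_num

theorem ind_false {p : Prop} (h : ¬ p) : ind p = 0 := by
  classical
  unfold ind
  rw [if_neg h]

theorem ind_pair {p q r : Prop} (h1 : p → q) (h2 : p → r) :
    ind p + ind (q ∧ ¬ r) ≤ ind q := by
  classical
  unfold ind
  by_cases hp : p
  · simp [hp, h1 hp, h2 hp]
  · by_cases hq : q <;> by_cases hr : r <;> simp [hp, hq, hr]

theorem pt (b u eb eu ab au aeu eab aeb dg : Prop)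
    (f1 : dg ∨ (b → u)) (f2 : dg ∨ (eb → eu)) (f3 : dg ∨ (ab → au)) (f4 : ab → b)
    (f5 : b → eb) (f6 : dg ∨ (eab → aeu)) (f7 : ab → eab) (f8 : u → eu) (f9 : au → u)
    (f10 : aeu → eu) (f11 : eab → aeb) (g1 : dg → ab) (g2 : dg → ¬ eu) (g3 : dg → ¬ u) :
    ind (eab ∧ ¬ ab) + ind (¬ aeu ∧ eu) + (ind (u ∧ ¬ b) + ind (aeu ∧ ¬ aeb)) ≤
      ind (eb ∧ ¬ b) + ind (¬ au ∧ u) + (ind (eu ∧ ¬ eb) + ind (au ∧ ¬ ab)) := by
  by_cases hd : dg
  · have h1 := g1 hd
    have h2 := g2 hd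
    have h3 := g3 hd
    rw [ind_false (p := eab ∧ ¬ ab) (fun h => h.2 h1),
      ind_false (p := ¬ aeu ∧ eu) (fun h => h2 h.2),
      ind_false (p := u ∧ ¬ b) (fun h => h3 h.1),
      ind_false (p := aeu ∧ ¬ aeb) (fun h => h2 (f10 h.1))]
    have := ind_nonneg (eb ∧ ¬ b)
    have := ind_nonneg (¬ au ∧ u)
    have := ind_nonneg (eu ∧ ¬ eb)
    have := ind_nonneg (au ∧ ¬ ab)
    linarith
  · have f1 := f1.resolve_left hd
    have f2 := f2.resolve_left hd
    have f3 := f3.resolve_left hd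
    have f6 := f6.resolve_left hd
    rw [ind_sub f7, ind_sub' f10, ind_sub f1, ind_sub f5, ind_sub' f9, ind_sub f2, ind_sub f3]
    have := ind_pair f6 f11
    linarith

/-- **The core**: for an outer minimiser the pair of interiors is an inner pair which is not more
expensive. -/
theorem core {w : V → ℝ} (hw : ∀ v, 0 < w v) {A B C : V → V → Prop} (hA : ∀ a, A a a)
    (hO : Outer A B C)
    (hmin : ∀ B' C', Outer A B' C' → cost w A B + cost w A C ≤ cost w A B' + cost w A C') :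
    ∃ X Y, Inner A X Y ∧ cost w A X + cost w A Y ≤ cost w A B + cost w A C := by
  classical
  have hIn : Inner A (fun a x => ∀ a', A a' a → B a' x) (fun x z => ∀ x', A x' x → C x' z) := by
    refine ⟨fun a a' h => hO.1 a' a h, fun a a' h => hO.2.1 a' a h, ?_⟩
    rintro a y ⟨x, hx, hxy⟩ ⟨z, hz, hza⟩
    have h1 : z = x := hO.2.2 z x (hx z hza) (hz x hxy)
    subst h1
    have h2 : a = z := hO.2.2 a z (hx a (hA a)) (hO.2.1 z a hza)
    have h3 : z = y := hO.2.2 z y (hO.1 z y hxy) (hz y (hA y))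
    exact h2.trans h3
  refine ⟨_, _, hIn, ?_⟩
  have hclub := club hw A B (fun a y => ¬ C y a)
    (fun a S hS => opt_row hw hA hO hmin a S fun y hy => ⟨(hS y hy).2, (hS y hy).1⟩)
    (fun y S hS => by
      have h1 := opt_row hw hA hO.symm (fun B' C' h => by
        have := hmin C' B' h.symm
        linarith) y S fun a ha => ⟨(hS a ha).1, (hS a ha).2⟩
      refine le_trans h1 (ms_mono hw ?_)
      rintro z ⟨⟨a, ha, haz⟩, hn⟩
      exact ⟨fun b hb hC => hn ⟨b, hC, hb⟩, a, ha, haz⟩)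
  rw [cost_eq_rows w A (fun a x => ∀ a', A a' a → B a' x),
    cost_eq_cols w A (fun x z => ∀ x', A x' x → C x' z), cost_eq_rows w A B,
    cost_eq_cols w A C]
  refine le_of_add_le_add_right (a := mu w (fun a y => (¬ C y a) ∧ ¬ B a y) +
      mu w (fun z y => (∀ a, A a z → ∃ x, ¬ C x a ∧ A x y) ∧
        ∃ a, ((∃ x, ¬ C x a ∧ A x y) ∧ ¬ ∃ x, B a x ∧ A x y) ∧ A a z)) ?_
  refine le_trans ?_ (add_le_add_right hclub _)
  simp only [mu_eq]
  simp only [← Finset.sum_add_distrib]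
  refine Finset.sum_le_sum fun y _ => Finset.sum_le_sum fun a _ => ?_
  simp only [← mul_add]
  refine mul_le_mul_of_nonneg_left ?_ (mul_nonneg (hw y).le (hw a).le)
  -- the pointwise inequality
  have hp := pt (B a y) (¬ C y a) (∃ x, B a x ∧ A x y) (∃ x, ¬ C x a ∧ A x y)
    (∀ a', A a' a → B a' y) (∀ b, A b a → ¬ C y b) (∀ b, A b a → ∃ x, ¬ C x b ∧ A x y)
    (∃ x, (∀ a', A a' a → B a' x) ∧ A x y) (∀ b, A b a → ∃ x, B b x ∧ A x y) (a = y)
    ?_ ?_ ?_ ?_ ?_ ?_ ?_ ?_ ?_ ?_ ?_ ?_ ?_ ?_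
  · have e1 : (∃ x, (∀ x', A x' y → C x' x) ∧ A x a) ∧ ¬ (∀ x', A x' y → C x' a) ↔
        (¬ (∀ b, A b a → ∃ x, ¬ C x b ∧ A x y)) ∧ ∃ x, ¬ C x a ∧ A x y := by
      push Not
      constructor
      · rintro ⟨⟨x, h1, h2⟩, x', h3, h4⟩
        exact ⟨⟨x, h2, fun x1 h5 h6 => h5 (h1 x1 h6)⟩, x', h4, h3⟩
      · rintro ⟨⟨b, h1, h2⟩, x, h3, h4⟩
        refine ⟨⟨b, fun x' h5 => ?_, h1⟩, x, h4, h3⟩
        by_contra hn
        exact h2 x' hn h5
    have e2 : (∃ x, C y x ∧ A x a) ∧ ¬ C y a ↔ (¬ ∀ b, A b a → ¬ C y b) ∧ ¬ C y a := by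
      push Not
      constructor
      · rintro ⟨⟨x, h1, h2⟩, h3⟩
        exact ⟨⟨x, h2, h1⟩, h3⟩
      · rintro ⟨⟨x, h1, h2⟩, h3⟩
        exact ⟨⟨x, h2, h1⟩, h3⟩
    have e3 : ((∀ b, A b a → ∃ x, ¬ C x b ∧ A x y) ∧
        ∃ b, ((∃ x, ¬ C x b ∧ A x y) ∧ ¬ ∃ x, B b x ∧ A x y) ∧ A b a) ↔
        (∀ b, A b a → ∃ x, ¬ C x b ∧ A x y) ∧ ¬ (∀ b, A b a → ∃ x, B b x ∧ A x y) := by
      constructor
      · rintro ⟨h1, b, ⟨-, h2⟩, h3⟩
        exact ⟨h1, fun h => h2 (h b h3)⟩
      · rintro ⟨h1, h2⟩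
        refine ⟨h1, ?_⟩
        by_contra hn
        refine h2 fun b hb => ?_
        by_contra hn2
        exact hn ⟨b, ⟨h1 b hb, hn2⟩, hb⟩
    have e4 : ((∀ b, A b a → ¬ C y b) ∧ ∃ b, (¬ C y b ∧ ¬ B b y) ∧ A b a) ↔
        (∀ b, A b a → ¬ C y b) ∧ ¬ (∀ a', A a' a → B a' y) := by
      constructor
      · rintro ⟨h1, b, ⟨-, h2⟩, h3⟩
        exact ⟨h1, fun h => h2 (h b h3)⟩
      · rintro ⟨h1, h2⟩
        refine ⟨h1, ?_⟩
        by_contra hn
        refine h2 fun b hb => ?_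
        by_contra hn2
        exact hn ⟨b, ⟨h1 b hb, hn2⟩, hb⟩
    rw [e1, e2, e3, e4]
    linarith
  · by_cases h : a = y
    · exact Or.inl h
    · exact Or.inr fun h1 h2 => h (hO.2.2 a y h1 h2)
  · by_cases h : a = y
    · exact Or.inl h
    · refine Or.inr ?_
      rintro ⟨x, h1, h2⟩
      by_cases hax : a = x
      · subst hax
        exact ⟨y, fun h3 => h (hO.2.2 a y (hO.1 a y h2) h3), hA y⟩
      · exact ⟨x, fun h3 => hax (hO.2.2 a x h1 h3), h2⟩
  · by_cases h : a = y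
    · exact Or.inl h
    · refine Or.inr fun h1 b hb hC => ?_
      have h2 : b = y := hO.2.2 b y (h1 b hb) hC
      subst h2
      exact h (hO.2.2 a b (h1 a (hA a)) (hO.2.1 b a hb))
  · exact fun h => h a (hA a)
  · exact fun h => ⟨y, h, hA y⟩
  · by_cases h : a = y
    · exact Or.inl h
    · refine Or.inr fun h1 => ?_
      by_contra hn
      push Not at hn
      obtain ⟨b, hb, hn⟩ := hn
      refine h (hIn.2.2 a y h1 ⟨b, fun x' hx' => ?_, hb⟩)
      by_contra hC
      exact hn x' hC hx'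
  · exact fun h => ⟨y, h, hA y⟩
  · exact fun h => ⟨y, h, hA y⟩
  · exact fun h => h a (hA a)
  · exact fun h => h a (hA a)
  · rintro ⟨x, h1, h2⟩ b hb
    exact ⟨x, h1 b hb, h2⟩
  · rintro rfl b hb
    exact hO.1 b a hb
  · rintro rfl ⟨x, h1, h2⟩
    exact h1 (hO.2.1 x a h2)
  · rintro rfl h
    exact h (hO.2.1 a a (hA a))

/-- **inner minimum ≤ outer minimum** -/
theorem inner_le_outer {w : V → ℝ} (hw : ∀ v, 0 < w v) {A : V → V → Prop} (hA : ∀ a, A a a)
    (hanti : ∀ a b, A a b → A b a → a = b) :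
    ∃ X Y, Inner A X Y ∧ ∀ B C, Outer A B C →
      cost w A X + cost w A Y ≤ cost w A B + cost w A C := by
  classical
  obtain ⟨⟨B, C⟩, hO, hmin⟩ := Set.exists_min_image
    {q : (V → V → Prop) × (V → V → Prop) | Outer A q.1 q.2}
    (fun q => cost w A q.1 + cost w A q.2) (Set.toFinite _)
    ⟨(A, A), fun _ _ h => h, fun _ _ h => h, fun a b h1 h2 => hanti a b h1 h2⟩
  obtain ⟨X, Y, hXY, hc⟩ := core hw hA hO (fun B' C' h => hmin (B', C') h)
  exact ⟨X, Y, hXY, fun B' C' h => le_trans hc (hmin (B', C') h)⟩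

end Vale.Agent.P038.H623
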