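import Vale.Agent.P038.H623.Core
import Vale.Agent.P038.H38.Strong
import Vale.Agent.P038.H71.Plan

/-!
# P038 (H623): Seymour's second neighbourhood conjecture
-/

namespace Vale.Agent.P038.H623

open Finset Vale.Agent.P038.H139 Vale.Agent.P038.H38 Vale.Agent.P038.H71

universe u

variable {V : Type u} [Fintype V]

/-- 294's inequality (strict) in the normal form with the fewest arcs. -/
theorem GS_of_NFmin [DecidableEq V] {D : OGraph V} {w : V → ℝ} (h : NFmin 1 D w) : GS D w := by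
  classical
  intro S hS
  have h1 := pplus h S (Lx D S) (Finset.Subset.refl _) hS
  have e0 : cl D (Lx D S \ Lx D S) = ∅ := by
    rw [Finset.sdiff_self]
    ext z
    simp [mem_cl]
  have e1 : cl D (Lx D S) \ (cl D (Lx D S \ Lx D S) ∪ S) = Lx D S ∪ L2 D S := by
    rw [e0]
    ext z
    unfold L2 Lx
    simp only [Finset.mem_sdiff, Finset.mem_union, mem_cl, mem_outS, Finset.notMem_empty,
      false_or]
    have hq : ∀ p q s : Prop, (((p ∧ ¬ s) ∨ q) ∧ ¬ s) ↔
        ((p ∧ ¬ s) ∨ (q ∧ ¬ (s ∨ (p ∧ ¬ s)))) := by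
      intro p q s
      by_cases hs : s <;> by_cases hp : p <;> simp [hs, hp]
    exact hq _ _ _
  have e2 : Disjoint (Lx D S) (L2 D S) := by
    rw [Finset.disjoint_left]
    intro z hz hz'
    unfold L2 at hz'
    unfold Lx at hz
    exact (Finset.mem_sdiff.1 hz').2 (Finset.mem_union_right _ hz)
  rw [e1, W_union e2] at h1
  have e3 : W w (L1 D S) = W w (Lx D S) := rfl
  rw [e3]
  linarith

/-- closed adjacency -/
def Ad (D : OGraph V) (a b : V) : Prop := a = b ∨ D.arc a b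

theorem W_eq_ms {w : V → ℝ} {S : Finset V} {P : V → Prop} (h : ∀ v, v ∈ S ↔ P v) :
    W w S = ms w P := sum_filter_eq_ms w P S h

theorem cl_iff [DecidableEq V] {D : OGraph V} {S : Finset V} {z : V} :
    z ∈ cl D S ↔ ∃ x, x ∈ S ∧ Ad D x z := by
  rw [mem_cl]
  constructor
  · rintro (h | ⟨y, hy, hyz⟩)
    · exact ⟨z, h, Or.inl rfl⟩
    · exact ⟨y, hy, Or.inr hyz⟩
  · rintro ⟨x, hx, rfl | hxz⟩
    · exact Or.inl hx
    · exact Or.inr ⟨x, hx, hxz⟩

/-- There is no normal form. -/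
theorem no_NFmin [Nonempty V] (D : OGraph V) (w : V → ℝ) (h : NFmin 1 D w) : False := by
  classical
  have hG : GS D w := GS_of_NFmin h
  have hw := h.pos
  have hA : ∀ a, Ad D a a := fun a => Or.inl rfl
  have hanti : ∀ a b, Ad D a b → Ad D b a → a = b := by
    rintro a b (h1 | h1) (h2 | h2)
    · exact h1
    · exact h1
    · exact h2.symm
    · exact absurd h2 (D.asymm a b h1)
  obtain ⟨X, Y, hXY, hle⟩ := inner_le_outer hw hA hanti
  have hO : Outer (Ad D) (fun a y => ∃ x, X a x ∧ Ad D x y) (fun a y => ∃ x, Y a x ∧ Ad D x y) :=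
    ⟨fun a y h => ⟨a, hXY.1 a, h⟩, fun a y h => ⟨a, hXY.2.1 a, h⟩, hXY.2.2⟩
  have h1 := hle _ _ hO
  let F : (V → V → Prop) → V → Finset V := fun X a => Finset.univ.filter fun x => X a x
  have hF : ∀ (X : V → V → Prop) (a x : V), x ∈ F X a ↔ X a x := by
    intro X a x
    simp [F]
  have e1 : ∀ X : V → V → Prop, cost w (Ad D) X = ∑ z, w z * W w (L1 D (F X z)) := by
    intro X
    unfold cost bd
    refine Finset.sum_congr rfl fun z _ => ?_
    rw [W_eq_ms (P := fun y => (∃ x, X z x ∧ Ad D x y) ∧ ¬ X z y)]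
    intro v
    rw [mem_L1', cl_iff, hF]
    simp only [hF]
  have e2 : ∀ X : V → V → Prop, cost w (Ad D) (fun a y => ∃ x, X a x ∧ Ad D x y) =
      ∑ z, w z * W w (L2 D (F X z)) := by
    intro X
    unfold cost bd
    refine Finset.sum_congr rfl fun z _ => ?_
    rw [W_eq_ms (P := fun y => (∃ x, (∃ t, X z t ∧ Ad D t x) ∧ Ad D x y) ∧
      ¬ ∃ x, X z x ∧ Ad D x y)]
    intro v
    rw [mem_L2, cl_iff, cl_iff]
    simp only [cl_iff, hF]
  rw [e1, e1, e2, e2] at h1
  refine pairing_sum (fun v => (hw v).le) hG (F X) (F Y) h1 ?_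
  obtain ⟨a, b, hab⟩ := exists_arc_of_NF h.toNF
  refine ⟨b, hw b, strong_of_NF h.toNF _ ⟨b, (hF X b b).2 (hXY.1 b)⟩ ⟨a, fun ha => ?_⟩⟩
  have h2 := hXY.2.2 b a ⟨a, (hF X b a).1 ha, hA a⟩ ⟨a, hXY.2.1 a, Or.inr hab⟩
  subst h2
  exact D.loopless _ hab

/-- **Seymour's second neighbourhood conjecture**, weighted form. -/
theorem snc_weighted [Nonempty V] (D : OGraph V) (w : V → ℝ) (hw : ∀ v, 0 ≤ w v) :
    ∃ v, ∑ u ∈ N1 D v, w u ≤ ∑ u ∈ N2 D v, w u := by
  obtain ⟨v, hv⟩ := snc_of_noNF (lam := 1) zero_le_one (fun V _ _ D w h => by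
    obtain ⟨D', w', h'⟩ := exists_nfmin h
    exact no_NFmin D' w' h') D w hw
  exact ⟨v, by rwa [one_mul] at hv⟩

/-- **Seymour's second neighbourhood conjecture**. -/
theorem snc [Nonempty V] (D : OGraph V) : ∃ v, (N1 D v).card ≤ (N2 D v).card := by
  obtain ⟨v, hv⟩ := snc_weighted D (fun _ => 1) (fun _ => zero_le_one)
  refine ⟨v, ?_⟩
  simp only [Finset.sum_const, nsmul_eq_mul, mul_one, Nat.cast_le] at hv
  exact hv

end Vale.Agent.P038.H623
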